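import Mathlib

/-!
P269: the space `ℂ^m` and complex valued differential forms (definitions only). The instances are
the usual ones of the library, transported to the new names.
-/

noncomputable section

namespace Vale.Agent.P269S

open ExteriorAlgebra MeasureTheory
open scoped ContDiff

section
variable (V : Type) {W A E I : Type} [AddCommGroup V] [Module ℂ V] [AddCommGroup W] [Module ℂ W]
  [Ring A] [Algebra ℂ A]

/-- The ring structure of the exterior algebra. -/
abbrev rg : Ring (ExteriorAlgebra ℂ V) := inferInstance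

/-- The algebra structure of the exterior algebra. -/
abbrev ag : Algebra ℂ (ExteriorAlgebra ℂ V) := inferInstance

variable {V}

/-- A vector as an element of the exterior algebra. -/
def io (a : V) : ExteriorAlgebra ℂ V := ι ℂ a

/-- The map of exterior algebras induced by a linear map. -/
def mp (f : V → W) (h : IsLinearMap ℂ f) : ExteriorAlgebra ℂ V → ExteriorAlgebra ℂ W :=
  ExteriorAlgebra.map (h.mk' f)

/-- `u` has degree `n`. -/
def dg (n : ℕ) (u : ExteriorAlgebra ℂ V) : Prop := u ∈ ⋀[ℂ]^n V

/-- The linear form which is `det (c a_1, ..., c a_n)` on `a_1 ∧ ... ∧ a_n` and vanishes in the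
other degrees. -/
def tp (n : ℕ) (c : V → Fin n → ℂ) : ExteriorAlgebra ℂ V → ℂ :=
  Classical.epsilon fun l => IsLinearMap ℂ l ∧ (∀ a, l (ιMulti ℂ n a) = Matrix.det (c ∘ a)) ∧
    ∀ k ≠ n, ∀ a, l (ιMulti ℂ k a) = 0

/-- `∑ u_i e_i ↦ ∑ D(u_i) e_i` for the basis `e` of `A`. -/
def exb (e : Module.Basis I ℂ A) (D : (E → ℂ) → A) (u : E → A) : A :=
  ∑ᶠ i, D (fun y => e.repr (u y) i) * e i

/-- The same for some basis of `A`. -/
def ex : ((E → ℂ) → A) → (E → A) → A := exb (Module.Free.chooseBasis ℂ A)

/-- The `A` valued function `u` is smooth at `z`. -/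
def Smo [NormedAddCommGroup E] [NormedSpace ℝ E] (u : E → A) (z : E) : Prop :=
  ∀ l : A →ₗ[ℂ] ℂ, ContDiffAt ℝ ∞ (fun y => l (u y)) z

/-- `e` is a chart of the atlas around `x`. -/
def At [TopologicalSpace E] [TopologicalSpace I] [ChartedSpace E I] (e : OpenPartialHomeomorph I E)
    (x : I) : Prop := e ∈ atlas E I ∧ x ∈ e.source

end

variable (m : ℕ)

/-- The space `ℂ^m`, with the usual structures. -/
def Cm : Type := Fin m → ℂ

instance : NormedAddCommGroup (Cm m) := Pi.normedAddCommGroup
instance : NormedSpace ℂ (Cm m) := Pi.normedSpace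
instance : NormedSpace ℝ (Cm m) := Pi.normedSpace
instance : TopologicalSpace (Cm m) := Pi.topologicalSpace
instance : AddCommGroup (Cm m) := Pi.addCommGroup
instance : Module ℂ (Cm m) := Pi.Function.module _ _ _
instance : Module ℝ (Cm m) := Pi.Function.module _ _ _
instance : MeasureSpace (Cm m) := MeasureSpace.pi

/-- Complex valued covectors on the real vector space `ℂ^m`. -/
def Cv : Type := Cm m →L[ℝ] ℂ

instance : AddCommGroup (Cv m) := ContinuousLinearMap.addCommGroup
instance : Module ℂ (Cv m) := ContinuousLinearMap.module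

/-- Complex valued exterior forms (of all degrees) on `ℂ^m`. -/
def Λ : Type := ExteriorAlgebra ℂ (Cv m)

instance : Ring (Λ m) := rg (Cv m)
instance : Algebra ℂ (Λ m) := ag (Cv m)
instance : Mul (Λ m) := Distrib.toMul
instance : SMul ℂ (Λ m) := Algebra.toSMul

variable {m} {k : ℕ}

/-- The integral over `s` with respect to Lebesgue measure. -/
def It (s : Set (Cm m)) (f : Cm m → ℂ) : ℂ := ∫ z in s, f z

/-- `u` has degree `n`. -/
def Dg (n : ℕ) (u : Λ m) : Prop := dg n u

/-- The differential of a function, as a form. -/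
def df (f : Cm m → ℂ) (z : Cm m) : Λ m := io (V := Cv m) (fderiv ℝ f z)

/-- The differential form `u` is smooth at `z`. -/
def Sm (u : Cm m → Λ m) (z : Cm m) : Prop := Smo u z

/-- The exterior derivative: `d (∑ u_i e_i) = ∑ du_i ∧ e_i` for a basis `e` of `Λ m`. -/
def d (u : Cm m → Λ m) (z : Cm m) : Λ m := ex (df · z) u

/-- The pull back of a covector by the differential of `f` at `z`. -/
def pb1 (f : Cm m → Cm k) (z : Cm m) (a : Cv k) : Cv m :=
  ContinuousLinearMap.comp a (fderiv ℝ f z)

/-- The pull back of forms by the differential of `f` at `z`. -/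
def pb (f : Cm m → Cm k) (z : Cm m) : Λ k → Λ m :=
  mp (pb1 f z) ⟨fun _ _ => rfl, fun _ _ => rfl⟩

/-- The value of the top degree part on the basis `e_0, i e_0, e_1, i e_1, ...` of `ℂ^m`, i.e. the
density with respect to Lebesgue measure. -/
def top : Λ m → ℂ := tp (m * 2) fun (a : Cv m) k => ContinuousLinearMap.toLinearMap a
  (Pi.single k.divNat (if k.modNat = 0 then 1 else Complex.I) : Fin m → ℂ)

/-- The pull back by the multiplication with `c`. -/
def sc (c : ℂ) : Λ m → Λ m := pb (fun v i => c * v i) fun _ => 0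

/-- `u` has type `(p, q)`. -/
def Ty (p q : ℕ) (u : Λ m) : Prop := ∀ c : ℂ, sc c u = (c ^ p * star c ^ q) • u

/-- The Chern form `-(i/2π) ∂∂̄ log h = (1/4π) d (d log h ∘ J)` of a hermitian line bundle in which
a holomorphic frame has squared length `h`. -/
def c1 (h : Cm m → ℝ) (z : Cm m) : Λ m :=
  (4 * Real.pi : ℂ)⁻¹ • d (fun y => sc Complex.I (df (fun w => (Real.log (h w) : ℂ)) y)) z

variable (m) (X : Type) [TopologicalSpace X]

/-- Local charts. -/
abbrev Chart : Type := OpenPartialHomeomorph X (Cm m)

/-- Families of local differential forms indexed by the charts of `X`. -/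
def Fm : Type := Chart m X → Cm m → Λ m

instance : Ring (Fm m X) := Pi.ring
instance : SMul ℂ (Fm m X) := Pi.instSMul

variable {m X} [ChartedSpace (Cm m) X]

/-- `u` is a smooth differential form on the complex manifold `X`. -/
def IsForm (u : Fm m X) : Prop :=
  ∀ e x, At e x → Sm (u e) (e x) ∧
    ∀ e', At e' x → u e (e x) = pb (fun z => e' (e.symm z)) (e x) (u e' (e' x))

/-- `u` is the exterior derivative of a smooth form. -/
def Exact (u : Fm m X) : Prop :=
  ∃ v : Fm m X, IsForm v ∧ ∀ e x, At e x → u e (e x) = d (v e) (e x)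

/-- The integral of the top degree part of `u` over the compact manifold `X`: the common value of
the sums given by the finite partitions of unity subordinate to charts. -/
def intg (u : Fm m X) : ℂ :=
  Classical.epsilon fun I => ∀ (N : ℕ) (e : Fin N → Chart m X)
    (ρ : Fin N → X → ℝ), (∀ i, e i ∈ atlas (Cm m) X ∧ Continuous (ρ i) ∧
      tsupport (ρ i) ⊆ (e i).source) → (∀ x, ∑ i, ρ i x = 1) →
    ∑ i, It (e i).target (fun z => (ρ i ((e i).symm z) : ℂ) * top (u (e i) z)) = I

end Vale.Agent.P269S
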