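import Vale.Agent.P269A.Defs
import Vale.Agent.P269S.F

/-!
# P269: smooth complete intersections and their cohomology (definitions only)
-/

noncomputable section

namespace Vale.Agent.P269S

open MvPolynomial

/-- The projective space of lines in `ℂ^N`. -/
def Pr (N : ℕ) : Type := Projectivization ℂ (Cm N)

/-- Homogeneous coordinates of a point. -/
def rp (N : ℕ) (y : Pr N) : Cm N := y.rep

theorem ne (N : ℕ) (y : Pr N) : Nonempty (Fin N) := (Function.ne_iff.1 y.rep_nonzero).nonempty

/-- The squared length `|x_i|^2 / ∑ |x_a|^2` at `y` of a section `x_i` of `O(1)` with `x_i(o) ≠ 0`,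
in the Fubini-Study metric. -/
def fs (N : ℕ) (o y : Pr N) : ℝ :=
  ‖rp N y (@Classical.epsilon _ (ne N o) fun i => rp N o i ≠ 0)‖ ^ 2 / ∑ a, ‖rp N y a‖ ^ 2

/-- `g` is a holomorphic immersion at `z`. -/
def Imm (E F : Type) [NormedAddCommGroup E] [NormedSpace ℂ E] [NormedAddCommGroup F]
    [NormedSpace ℂ F] (g : E → F) (z : E) : Prop :=
  AnalyticAt ℂ g z ∧ Function.Injective (fderiv ℂ g z)

/-- Here `F u` says that `u` is a smooth form, `D v u` that `u = d v`, `T p q u` that `u` has type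
`(p, q)`; `I` is the integral and `h` the hyperplane class. The closed forms `φ a` of type
`(Y.p a, Y.q a)` represent a basis of the de Rham cohomology, `φ Y.o = 1`, and `Y.J` are the
intersection numbers. -/
structure IsCoh (A ι : Type) [Ring A] [SMul ℂ A] [Fintype ι] (F : A → Prop) (D : A → A → Prop)
    (T : ℕ → ℕ → A → Prop) (I : A → ℂ) (h : A) (φ : ι → A) (Y : P269A.Coh ι) : Prop where
  form : ∀ a, F (φ a) ∧ D (φ a) 0 ∧ T (Y.p a) (Y.q a) (φ a)
  one : φ Y.o = 1
  ind : ∀ (s : ι → ℂ) v, F v → D v (∑ a, s a • φ a) → ∀ a, s a = 0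
  span : ∀ u, F u → D u 0 → ∃ (s : ι → ℂ) (v : A), F v ∧ D v (u - ∑ a, s a • φ a)
  int : ∀ e l, Y.J e l = I (h ^ e * (l.map φ).prod)

/-- Polynomials `f j` in `N` variables, their degrees, and a map to the projective space. -/
structure CI (c N : ℕ) (M : Type) where
  f : Fin c → MvPolynomial (Fin N) ℂ
  dg : Fin c → ℕ
  pt : M → Pr N

variable {c N r : ℕ} {M ι : Type} (X : CI c N M)

/-- `c_1(TX) = idx • H`. -/
def CI.idx : ℤ := N - ∑ j, X.dg j

/-- The complex manifold `M` of dimension `r` is a smooth complete intersection in `P^(r+c)`: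
`pt` is a holomorphic embedding onto the zero set of `c` homogeneous polynomials `f j` of degree
`dg j` whose differentials are independent along it. `Y` is its cohomological data in the basis
`φ`: `c_j(TX) = Y.γ j • H ^ j` by `c(TX) = (1 + H) ^ N / ∏ (1 + d_j H)`, where `H` is the Chern form
of `O(1)` with the Fubini-Study metric. -/
structure CI.Ok [TopologicalSpace M] [ChartedSpace (Cm r) M] [Fintype ι] (φ : ι → Fm r M)
    (Y : P269A.Coh ι) : Prop where
  dim : N = r + c + 1 ∧ Y.r = r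
  hom : ∀ j, (X.f j).IsHomogeneous (X.dg j)
  inj : Function.Injective X.pt
  rng : ∀ y, (∃ x, X.pt x = y) ↔ ∀ j, eval (rp N y) (X.f j) = 0
  ind : ∀ x, LinearIndependent ℂ (M := Cm N) fun j a => eval (rp N (X.pt x)) (pderiv a (X.f j))
  hol : ∀ (e : Chart r M) x, At e x → ∀ i, rp N (X.pt x) i ≠ 0 → Imm (Cm r) (Cm N)
    (fun w => let y := rp N (X.pt (e.symm w)); fun a => (y i)⁻¹ * y a) (e x)
  chern : ∀ j, Y.γ j = PowerSeries.coeff j
    ((1 + PowerSeries.X) ^ N * ∏ i, (1 + (X.dg i : ℂ) • PowerSeries.X)⁻¹)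
  coh : IsCoh (Fm r M) ι IsForm (fun v u => ∀ e x, At e x → u e (e x) = d (v e) (e x))
    (fun p q u => ∀ e x, At e x → Ty p q (u e (e x))) intg
    (fun e z => c1 (fun w => fs N (X.pt (e.symm z)) (X.pt (e.symm w))) z) φ Y

end Vale.Agent.P269S
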