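import Vale.Agent.P269S.C
import Vale.Agent.P269Z.Stmt

/-!
P269: the compact definitions of block C against the original ones.
-/

set_option autoImplicit false
set_option linter.all false
set_option maxSynthPendingDepth 3

noncomputable section

namespace Vale.Agent.P269S

open Set Filter MvPolynomial
open scoped Topology ContDiff Matrix ComplexOrder

/-- The original families. -/
abbrev OF (L : Type) (m : ℕ) : Type 1 := P273.H183.Fam L m

variable {L X : Type} {g m m' : ℕ}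

/-- From the original families. -/
def ofF (C : OF L m) : Fam L (Cm m) C.X := ⟨C.B, C.top, C.π, C.hol, C.s⟩

/-- To the original families. -/
def toF (C : Fam L (Cm m) X) : OF L m := @P273.H183.Fam.mk L m C.B X C.top C.π C.hol C.s

variable {C : OF L m} {C' : OF L m'}

theorem chart_iff {U : Set C.X} {x y : C.X → ℂ} {t : Cm m → ℂ} :
    (ofF C).IsChart U x y t ↔ P273.H183.IsChart C.π C.hol U x y t :=
  ⟨fun h => ⟨h.1, fun p hp => (h.2.2.2 p hp).1, h.2.1, h.2.2.1, fun p hp => (h.2.2.2 p hp).2⟩,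
    fun h => ⟨h.1, h.2.2.1, h.2.2.2.1, fun p hp => ⟨h.2.1 p hp, h.2.2.2.2 p hp⟩⟩⟩

theorem nf_of {b : Cm m} {p : C.X} (hp : p ∈ C.fib b) : nf (ofF C) p = 𝓝[C.fib b] p := by
  have h : C.π p = b := hp
  subst h; rfl

theorem stab_iff {b : Cm m} : Stab (ofF C) b (fun _ => True) ↔
    ∀ D, C.IsField b D → ∀ p ∈ C.fib b, ∀ f, C.hol f p → D f p = 0 := by
  refine forall_congr' fun D => ⟨fun h hD => h (fun p hp => ⟨fun f g hf hg => ?_, hD.2.1 p hp⟩)
    hD.2.2 trivial, fun h h1 h2 _ => h ⟨fun p hp f g hf hg => ?_, fun p hp => (h1 p hp).2, h2⟩⟩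
  · obtain ⟨a1, a2, a3, a4⟩ := hD.1 p hp f g hf hg
    rw [← nf_of hp] at a3 a4
    exact ⟨a1, a2, a3, a4⟩
  · obtain ⟨a1, a2, a3, a4⟩ := (h1 p hp).1 f g hf hg
    rw [← nf_of hp]
    exact ⟨a1, a2, a3, a4⟩

theorem stable_iff : (ofF C).IsStable ↔ C.IsStable := by
  constructor
  · rintro ⟨-, ⟨a1, a2, a3, a4, a5⟩, a6⟩
    refine ⟨a1, a2, fun p => (a4 p).1, a3, fun p => ?_, fun b hb => ⟨(a5 b hb).1, fun i => ?_,
      stab_iff.1 (a6 b hb)⟩⟩
    · obtain ⟨U, x, y, t, h1, h2⟩ := (a4 p).2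
      exact ⟨U, x, y, t, h1, chart_iff.1 h2⟩
    · obtain ⟨b1, b2, b3, b4⟩ := (a5 b hb).2.2 _ ⟨i, rfl⟩
      exact ⟨b1, b2, b3, fun j e => (a5 b hb).2.1 e,
        fun U x y t h => b4 U x y t (chart_iff.2 h)⟩
  · rintro ⟨a1, a2, a3, a4, a5, a6⟩
    refine ⟨inferInstanceAs (FiniteDimensional ℂ (Fin m → ℂ)), ⟨a1, a2, a4, fun p => ⟨a3 p, ?_⟩,
      fun b hb => ⟨(a6 b hb).1, fun i j e => ((a6 b hb).2.1 i).2.2.2.1 j e, ?_⟩⟩,
      fun b hb => stab_iff.2 (a6 b hb).2.2⟩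
    · obtain ⟨U, x, y, t, h1, h2⟩ := a5 p
      exact ⟨U, x, y, t, h1, chart_iff.2 h2⟩
    · rintro _ ⟨i, rfl⟩
      obtain ⟨b1, b2, b3, -, b4⟩ := (a6 b hb).2.1 i
      exact ⟨b1, b2, b3, fun U x y t h => b4 U x y t (chart_iff.1 h)⟩

theorem om_iff {b : Cm m} {η : Df C.X} : Om (ofF C) b η ↔ P269C.Om C b η :=
  forall₂_congr fun _ _ => and_congr Iff.rfl (forall₄_congr fun _ _ _ _ =>
    imp_congr chart_iff Iff.rfl)

theorem bas_iff {b : Cm m} {e : Fin g → Df C.X} : Bas (ofF C) b e ↔ P269C.Bas C b e :=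
  and_congr (forall_congr' fun _ => om_iff) (forall_congr' fun _ => imp_congr om_iff Iff.rfl)

theorem fr_iff {b : Cm m} {e : Fin g → Df C.X} : Fr (ofF C) b e ↔ P269C.Fr C b e :=
  eventually_congr (Eventually.of_forall fun _ => and_congr bas_iff Iff.rfl)

theorem fh_congr {b : Cm m} {p : C.X} (hp : p ∈ C.fib b) {f f' : C.X → ℂ}
    (e : ∀ q ∈ C.fib b, f q = f' q) : P269C.FH C f p ↔ P269C.FH C f' p := by
  have h : f =ᶠ[P269C.nf C p] f' := by
    have h1 : C.π p = b := hp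
    subst h1
    filter_upwards [self_mem_nhdsWithin] with q hq using e q hq
  exact ⟨fun ⟨k, h1, h2⟩ => ⟨k, h1, h.symm.trans h2⟩, fun ⟨k, h1, h2⟩ => ⟨k, h1, h.trans h2⟩⟩

theorem iso_iff {b : Cm m} {b' : Cm m'} {Φ : C.X → C'.X} : Iso (ofF C) b (ofF C') b' Φ ↔
    (fun p : C.fib b => Φ p) ∈ P269C.Iso C b C' b' := by
  have hr : range (fun p : C.fib b => Φ p) = Φ '' C.fib b := (image_eq_range _ _).symm
  constructor
  · rintro ⟨a1, a2, a3⟩
    refine ⟨continuousOn_iff_continuous_restrict.1 a1, fun p q e => Subtype.ext (a2.injOn p.2 q.2 e),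
      hr.trans a2.image_eq, fun i p => (a3 p p.2).1 i, fun p f f' e => ?_⟩
    exact (fh_congr p.2 fun q hq => e ⟨q, hq⟩).trans ((a3 p p.2).2 f')
  · rintro ⟨a1, a2, a3, a4, a5⟩
    rw [hr] at a3
    refine ⟨continuousOn_iff_continuous_restrict.2 a1, ⟨fun p hp => ?_, fun p hp q hq e => ?_, a3.ge⟩,
      fun p hp => ⟨fun i => a4 i ⟨p, hp⟩, fun f => a5 ⟨p, hp⟩ _ f fun _ => rfl⟩⟩
    · exact a3.le (mem_image_of_mem _ hp)
    · exact congrArg Subtype.val (a2 (a₁ := ⟨p, hp⟩) (a₂ := ⟨q, hq⟩) e)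

theorem ex_ext {Y : Type} {S : Set X} (hS : S.Nonempty) (Ψ : S → Y) :
    ∃ Φ : X → Y, (fun p : S => Φ p) = Ψ :=
  ⟨Function.extend Subtype.val Ψ fun _ => Ψ ⟨_, hS.some_mem⟩,
    funext fun p => Subtype.val_injective.extend_apply _ _ p⟩

theorem cnt_eq {b : Cm m} {b' : Cm m'} (h : (C.fib b).Nonempty) :
    cnt (C.fib b) (Iso (ofF C) b (ofF C') b') = (P269C.Iso C b C' b').ncard := by
  unfold cnt
  congr 2
  ext Ψ
  constructor
  · rintro ⟨Φ, h1, rfl⟩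
    exact iso_iff.1 h1
  · intro h1
    obtain ⟨Φ, rfl⟩ := ex_ext h Ψ
    exact ⟨Φ, iso_iff.2 h1, rfl⟩

theorem kur_of (h : Kur (ofF C)) : P269C.Kur C := by
  refine ⟨stable_iff.1 h.1, fun U x y t hU => h.2.1 U x y t (chart_iff.2 hU),
    fun m' C' hC' b hb K hK hK' => ?_⟩
  obtain ⟨k, φ, Φ, h1⟩ := h.2.2 (Cm m') C'.X (ofF C') (stable_iff.2 hC') b hb K hK hK'
  refine ⟨k, φ, Φ, ?_⟩
  filter_upwards [h1, hC'.1.mem_nhds hb] with a ha ha'
  refine ⟨fun j => ⟨(ha.1 j).1, (ha.1 j).2.1, iso_iff.1 (ha.1 j).2.2.1, (ha.1 j).2.2.2.1⟩,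
    fun j l e => (ha.1 j).2.2.2.2 l fun p hp => congrFun e ⟨p, hp⟩, fun x hx Ψ hΨ => ?_⟩
  obtain ⟨Φ', rfl⟩ := ex_ext (hC'.2.2.2.2.2 a ha').1.nonempty Ψ
  obtain ⟨j, hj⟩ := ha.2 x hx Φ' (iso_iff.2 hΨ)
  exact ⟨j, funext fun p => hj p.2⟩

theorem psi_of {h : Hm L} (hh : IsPsi h) :
    P269C.IsPsi fun m (C : OF L m) => h (Cm m) C.X (ofF C) := by
  refine ⟨fun m m' C C' b b' Ψ hΨ i z f z' c hs hz hz' hf hd => ?_,
    fun m C hC b hb i z h1 h2 => (hh _ _ (ofF C) b i z h2).2 (stable_iff.2 hC) hb h1⟩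
  obtain ⟨Φ, rfl⟩ := ex_ext (S := C.fib b) ⟨C.s i b, hs i⟩ Ψ
  refine (hh _ _ (ofF C) b i z hz).1 _ _ (ofF C') b' Φ z' c (iso_iff.2 hΨ) hs hz' ?_
  have e : ∀ᶠ q in P269C.nf C (C.s i b), f q = z' (Φ q) := by
    filter_upwards [self_mem_nhdsWithin] with q hq using hf ⟨q, Eq.trans hq (hs i)⟩
  have e0 : f (C.s i b) = z' (Φ (C.s i b)) := hf ⟨_, hs i⟩
  refine Asymptotics.IsLittleO.congr' hd ?_ ?_ <;> filter_upwards [e] with q hq
  · rw [hq, e0]; rfl
  · rw [hq, e0]; rfl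

theorem lam_of {G : Gm g} (hG : IsLam G) :
    P269C.IsLam fun m (C : OF Empty m) => G (Cm m) C.X (ofF C) := by
  refine ⟨fun m m' C C' b b' Ψ hΨ e e' A he he' hA => ?_, fun L _ m C hC b hb e he =>
    (hG (Cm m) C.X b e).2 L (ofF C) (stable_iff.2 hC) hb (fr_iff.2 he)⟩
  rcases (C.fib b).eq_empty_or_nonempty with h0 | h0
  · have h1 : ∀ (P : C.X → Prop), ∀ p ∈ C.fib b, P p := fun P p hp => by
      rw [h0] at hp; exact hp.elim
    obtain ⟨c, -, hc⟩ := he.2 0 (h1 _)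
    ext j
    exact absurd (congrFun ((hc 0 (h1 _)).trans (hc 1 (h1 _)).symm) j) zero_ne_one
  · obtain ⟨Φ, rfl⟩ := ex_ext h0 Ψ
    exact (hG (Cm m) C.X b e).1 _ _ (ofF C) (ofF C') b' Φ e' A (iso_iff.2 hΨ) (bas_iff.2 he)
      (bas_iff.2 he') fun p hp z hz => hA ⟨p, hp⟩ _ z hz fun _ => rfl

theorem dw_z (j : Fin m) (f : Cm m → ℂ) (z : Cm m) :
    dw (E := Cm m) (-1 * Complex.I) (Pi.single j 1) (Pi.single j Complex.I) f z =
      P272.K.dz j f z := by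
  unfold dw
  rw [neg_one_mul, neg_mul, ← sub_eq_add_neg]; rfl

theorem dw_zb (j : Fin m) (f : Cm m → ℂ) (z : Cm m) :
    dw (E := Cm m) (1 * Complex.I) (Pi.single j 1) (Pi.single j Complex.I) f z =
      P272.K.dzb j f z := by
  unfold dw
  rw [one_mul]; rfl

theorem chern_eq (G : Cm m → Matrix (Fin g) (Fin g) ℂ) (z : Cm m) (k : ℕ) :
    chern G z k = P269C.chern G k z := by
  simp only [chern, dw_z, dw_zb]; rfl

theorem int_of {n : ℕ} {G : Gm g} {h : Hm (Fin n)} {J : (Fin n → ℕ) → MvPolynomial ℕ ℂ → ℂ}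
    (hJ : Itg g n m G h J) : ∃ A : P269C.Atlas g m (Fin n), ∀ μ P, J μ P = A.int fun a b =>
      aeval (P269C.lam (fun m (C : OF Empty m) => G (Cm m) C.X (ofF C)) (A.C a) b) P *
        ∏ i, P269C.psi (fun m (C : OF (Fin n) m) => h (Cm m) C.X (ofF C)) (A.C a) b i ^ μ i := by
  obtain ⟨k, X, C, ρ, h1, h2, h3⟩ := hJ
  refine ⟨⟨k, fun a => toF (C a), ρ, fun a => kur_of (h1 a).1, fun a b hb =>
    ((h1 a).2.1 b hb).imp fun e he => (fr_iff (C := toF (C a))).1 he, fun a => (h1 a).2.2,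
    fun m' C' hC' b hb he => ?_⟩, fun μ P => ?_⟩
  · rw [← h2 _ _ (ofF C') (stable_iff.2 hC') b hb (he.imp fun e he => bas_iff.2 he)]
    refine Finset.sum_congr rfl fun a _ => finsum_congr fun x => ?_
    exact congrArg (· * ρ a x)
      (cnt_eq (C' := toF (C a)) (b' := x) (hC'.2.2.2.2.2 b hb).1.nonempty).symm
  · rw [h3]
    refine Finset.sum_congr rfl fun a _ => congrArg (MeasureTheory.integral _) (funext fun b => ?_)
    refine congrArg (fun Q => (ρ a b : ℂ) * tau Q) (congrArg₂ (· * ·) ?_ ?_)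
    · refine congrArg (fun F => aeval F P) (funext fun l => ?_)
      rw [chern_eq, show Fr (g := g) (C a) b = P269C.Fr (toF (C a)) b from
        funext fun e => propext (fr_iff (C := toF (C a)))]
      rfl
    · refine Finset.prod_congr rfl fun i _ => congrArg (· ^ μ i) ?_
      refine (chern_eq _ _ _).trans (congrArg (fun F => P269C.chern F 1 b) (funext fun x => ?_))
      ext p q
      rw [Subsingleton.elim p 0, Subsingleton.elim q 0]
      rfl

theorem md_of {I : ℕ → List ℕ → MvPolynomial ℕ ℂ → ℂ} (hI : Hodge I) :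
    ∃ M : P269C.Md, ∀ g μ P, 2 < 2 * g + List.length μ → I g μ P = M.I g μ P := by
  obtain ⟨G, h, h1, h2⟩ := hI
  choose A hA using fun g n s => int_of (h2 g n s)
  refine ⟨⟨_, _, A, fun g => lam_of (h1 g).1, fun n => psi_of (h1 n).2⟩, fun g μ P s => ?_⟩
  have h3 := hA g _ s μ.get P
  rw [List.ofFn_get] at h3
  rw [h3, P269C.Md.I, dif_pos s]

theorem len_low : ∀ (ms : List ℕ), ∀ u ∈ P269A.low ms, u.length = ms.length
  | [], u, hu => absurd hu List.not_mem_nil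
  | 0 :: ms, u, hu => by
    obtain ⟨v, hv, rfl⟩ := List.mem_map.1 hu
    rw [List.length_cons, List.length_cons, len_low ms v hv]
  | (m + 1) :: ms, u, hu => by
    rcases List.mem_cons.1 hu with rfl | hu
    · rfl
    · obtain ⟨v, hv, rfl⟩ := List.mem_map.1 hu
      rw [List.length_cons, List.length_cons, len_low ms v hv]

/-- **Block C for the compact definitions.** -/
theorem hodge_ok (bc : P269Z.BC) {I : ℕ → List ℕ → MvPolynomial ℕ ℂ → ℂ} (hI : Hodge I) :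
    P269A.ModOK I := by
  obtain ⟨M, e⟩ := md_of hI
  have h := bc M
  refine ⟨fun g ms P Q s => ?_, fun g ms c P s => ?_, fun g ms ms' P s hp => ?_,
    fun g ms P s => ?_, fun ms s => ?_, ?_, ?_, ?_, fun g ms P w s hP => ?_⟩
  · rw [e _ _ _ s, e _ _ _ s, e _ _ _ s]; exact h.add g ms P Q s
  · rw [e _ _ _ s, e _ _ _ s]; exact h.smul g ms c P s
  · rw [e _ _ _ s, e _ ms' _ (hp.length_eq ▸ s)]; exact h.perm g ms ms' P s hp
  · rw [e _ _ _ (by rw [List.length_cons]; omega), h.string g ms P s]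
    exact congrArg List.sum (List.map_congr_left fun u hu =>
      (e _ _ _ (by rw [len_low ms u hu]; exact s)).symm)
  · rw [e _ _ _ (by rw [List.length_cons]; omega), e _ ms _ (by omega)]; exact h.dilaton ms s
  · rw [e _ _ _ (by decide)]; exact h.v03
  · rw [e _ _ _ (by decide)]; exact h.v11
  · rw [e _ _ _ (by decide)]; exact h.l11
  · rw [e _ _ _ s]; exact h.degree g ms P w s hP

end Vale.Agent.P269S
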