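import Vale.Agent.P269S.F
import Vale.Agent.P269F.Defs

/-!
P269: the compact definitions agree with those of P269F.
-/

set_option linter.unusedSectionVars false

noncomputable section

namespace Vale.Agent.P269S

open ExteriorAlgebra

theorem tp_eq {V : Type} [AddCommGroup V] [Module ℂ V] {n : ℕ} (c : V →ₗ[ℂ] Fin n → ℂ) :
    tp n c = liftAlternating (R := ℂ) (M := V) (N := ℂ)
      (Pi.single n (Matrix.detRowAlternating.compLinearMap c)) := by
  set T := liftAlternating (R := ℂ) (M := V) (N := ℂ)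
    (Pi.single n (Matrix.detRowAlternating.compLinearMap c)) with hT
  have h1 : ∀ a, T (ιMulti ℂ n a) = Matrix.det (c ∘ a) := fun a => by
    rw [hT, liftAlternating_apply_ιMulti, Pi.single_eq_same]
    rfl
  have h2 : ∀ k ≠ n, ∀ a, T (ιMulti ℂ k a) = 0 := fun k hk a => by
    rw [hT, liftAlternating_apply_ιMulti, Pi.single_eq_of_ne hk]
    rfl
  obtain ⟨k1, k2, k3⟩ := Classical.epsilon_spec (p := fun l : ExteriorAlgebra ℂ V → ℂ =>
    IsLinearMap ℂ l ∧ (∀ a, l (ιMulti ℂ n a) = Matrix.det (c ∘ a)) ∧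
      ∀ k ≠ n, ∀ a, l (ιMulti ℂ k a) = 0) ⟨T, T.isLinear, h1, h2⟩
  have h3 : k1.mk' _ = T := lhom_ext fun i => AlternatingMap.ext fun a => by
    by_cases hi : i = n
    · subst hi
      exact (k2 a).trans (h1 a).symm
    · exact (k3 i hi a).trans (h2 i hi a).symm
  exact congrArg DFunLike.coe h3

variable {m k : ℕ}

theorem Λ_eq : Λ m = P269F.Λ (Fin m → ℂ) := rfl

theorem sm_eq (u : Cm m → Λ m) (z : Cm m) : Sm u z = P269F.Sm (E := Fin m → ℂ) u z := rfl

theorem d_eq (u : Cm m → Λ m) (z : Cm m) : d u z = P269F.d (E := Fin m → ℂ) u z := rfl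

theorem pb_eq (f : Cm m → Cm k) (z : Cm m) (u : Λ k) :
    pb f z u = P269F.pb (E := Fin m → ℂ) (F := Fin k → ℂ) f z u := rfl

theorem dg_eq (n : ℕ) (u : Λ m) : Dg n u =
    (Membership.mem (⋀[ℂ]^n ((Fin m → ℂ) →L[ℝ] ℂ)) (u : P269F.Λ (Fin m → ℂ))) := rfl

theorem top_fun : (top : Λ m → ℂ) = P269F.top m :=
  tp_eq (V := Cv m) ⟨⟨fun a k => ContinuousLinearMap.toLinearMap a
    (Pi.single k.divNat (if k.modNat = 0 then 1 else Complex.I) : Fin m → ℂ),
      fun _ _ => rfl⟩, fun _ _ => rfl⟩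

theorem top_eq (u : Λ m) : top u = P269F.top m u := congrFun top_fun u

theorem ty_eq (p q : ℕ) (u : Λ m) : Ty p q u = P269F.Ty p q u := rfl

theorem c1_eq (h : Cm m → ℝ) (z : Cm m) : c1 h z = P269F.c1 h z := rfl

theorem it_eq (s : Set (Cm m)) (f : Cm m → ℂ) :
    It s f = ∫ z : Fin m → ℂ in (s : Set (Fin m → ℂ)), f z := rfl

variable {X : Type} [TopologicalSpace X] [i : ChartedSpace (Cm m) X]

theorem isForm_iff (u : Fm m X) : IsForm u ↔ @P269F.IsForm m X _ i u :=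
  ⟨fun h e he x hx => ⟨(h e x ⟨he, hx⟩).1, fun e' he' hx' => (h e x ⟨he, hx⟩).2 e' ⟨he', hx'⟩⟩,
    fun h e x he => ⟨(h e he.1 x he.2).1, fun e' he' => (h e he.1 x he.2).2 e' he'.1 he'.2⟩⟩

theorem exact_iff (u : Fm m X) : Exact u ↔ @P269F.Exact m X _ i u :=
  exists_congr fun v => and_congr (isForm_iff v)
    ⟨fun h e he x hx => h e x ⟨he, hx⟩, fun h e x he => h e he.1 x he.2⟩

theorem intg_eq (u : Fm m X) : intg u = @P269F.intg m X _ i u := by
  unfold intg
  rw [top_fun]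
  rfl

theorem mul_eq (u v : Fm m X) : u * v = (id u * id v : P269F.Fm m X) := rfl

theorem pow_eq (u : Fm m X) (k : ℕ) : u ^ k = (id u ^ k : P269F.Fm m X) := rfl

theorem prod_eq (l : List (Fm m X)) : l.prod = List.prod (α := P269F.Fm m X) l := rfl

theorem one_eq : (1 : Fm m X) = (1 : P269F.Fm m X) := rfl

theorem sum_eq {ι : Type} [Fintype ι] (s : ι → ℂ) (u : ι → Fm m X) :
    ∑ a, s a • u a = (∑ a, s a • id (u a) : P269F.Fm m X) := rfl

end Vale.Agent.P269S
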