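import Vale.Agent.P269S.H
import Vale.Agent.P269S.FB
import Vale.Agent.P269Z.Stmt

/-!
P269: the compact definitions of complete intersections agree with those of P269H.
-/

open scoped Manifold ContDiff

noncomputable section

namespace Vale.Agent.P269S

variable {c r : ℕ} {M ι : Type} [TopologicalSpace M] [i : ChartedSpace (Cm r) M] [Fintype ι]
  {X : CI c (r + c + 1) M} {φ : ι → Fm r M} {Y : P269A.Coh ι}

/-- the complete intersection -/
def CI.Ok.toCI (h : X.Ok φ Y) : @P269H.CI r c M _ i :=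
  @P269H.CI.mk r c M _ i X.f X.dg h.hom X.pt h.inj h.rng h.ind fun e he x hx => h.hol e x ⟨he, hx⟩

/-- the basis -/
def CI.Ok.toBas (h : X.Ok φ Y) : @P269H.Bas r M _ i ι _ :=
  @P269H.Bas.mk r M _ i ι _ φ Y.p Y.q Y.o (fun a => (isForm_iff _).1 (h.coh.form a).1)
    (fun a e he x hx => ((h.coh.form a).2.1 e x ⟨he, hx⟩).symm)
    (fun a e he x hx => (h.coh.form a).2.2 e x ⟨he, hx⟩) h.coh.one
    (fun s ⟨v, k1, k2⟩ => funext (h.coh.ind s v ((isForm_iff v).2 k1) fun e x k => k2 e k.1 x k.2))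
    fun u k1 k2 => (h.coh.span u ((isForm_iff u).2 k1) fun e x k => (k2 e k.1 x k.2).symm).imp
      fun _ ⟨v, k3, k4⟩ => ⟨v, (isForm_iff v).1 k3, fun e he x hx => k4 e x ⟨he, hx⟩⟩

theorem CI.Ok.coh_eq (h : X.Ok φ Y) : Y = @P269H.CI.coh r c M _ i h.toCI ι _ h.toBas := by
  obtain ⟨r', p, q, o, γ, J⟩ := Y
  obtain rfl : r' = r := h.dim.2
  have h1 := funext h.chern
  have h2 : J = _ := funext fun e => funext fun l => (h.coh.int e l).trans (intg_eq _)
  exact congrArg₂ (P269A.Coh.mk r' p q o) h1 h2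

theorem CI.Ok.idx_eq (h : X.Ok φ Y) : X.idx = @P269H.CI.idx r c M _ i h.toCI := by
  simp only [CI.idx, P269H.CI.idx, CI.Ok.toCI]
  push_cast
  rfl

/-- **block H for the compact definitions** -/
theorem bh_s (hH : P269Z.BH) {N : ℕ} {X : CI c N M} [DecidableEq ι]
    [j : IsManifold 𝓘(ℂ, Cm r) ω M] [T2Space M] [CompactSpace M] [ConnectedSpace M]
    (h : X.Ok φ Y) (hr : 3 ≤ r) : P269A.CohOK Y := by
  obtain rfl := h.dim.1
  rw [h.coh_eq]
  exact @hH r c M _ i j _ _ _ h.toCI ι _ _ h.toBas hr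

end Vale.Agent.P269S
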