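import Vale.Agent.P269S.F

/-!
P269: families of curves, and the integrals of polynomials in the classes `λ_k` and `ψ_i` over the
moduli stack of stable curves (definitions only).
-/

noncomputable section

namespace Vale.Agent.P269S

open Set Filter Asymptotics MvPolynomial
open scoped Topology ContDiff Matrix ComplexOrder

/-- The data of a family of curves with total space `X` and marked points indexed by `L`, over a
part `B` of the vector space `E`; `hol f p`: the function `f` is holomorphic at `p`. -/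
structure Fam (L E X : Type) where
  B : Set E
  top : TopologicalSpace X
  π : X → E
  hol : (X → ℂ) → X → Prop
  s : L → E → X

variable {L E E' X X' : Type} {g m : ℕ}

/-- The fibre. -/
def Fam.fib (C : Fam L E X) (b : E) : Set X := {p | C.π p = b}

/-- The family without its marked points. -/
def fg (C : Fam L E X) : Fam Empty E X := { C with s := Empty.elim }

/-- Differentials (`η z p` is the coefficient of `dz` at `p`) and vector fields. -/
abbrev Df (X : Type) : Type := (X → ℂ) → X → ℂ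

/-- The neighbourhoods of `p` in its fibre. -/
def nf (C : Fam L E X) (p : X) : Filter X := @nhdsWithin X C.top p (C.fib (C.π p))

/-- `f` is holomorphic at `p` on the fibre. -/
def FH (C : Fam L E X) (f : X → ℂ) (p : X) : Prop := ∃ g, C.hol g p ∧ f =ᶠ[nf C p] g

/-- `z` is a coordinate of the fibre at the (smooth) point `p`. -/
def Co (C : Fam L E X) (z : X → ℂ) (p : X) : Prop := FH C z p ∧ ∃ U ∈ nf C p, InjOn z U

/-- `df = c dz` at `p` on the fibre. -/
def Dr (C : Fam L E X) (f z : X → ℂ) (p : X) (c : ℂ) : Prop :=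
  (fun q => f q - f p - c * (z q - z p)) =o[nf C p] fun q => z q - z p

/-- `Φ` restricts to an isomorphism of fibres, compatible with the marked points. -/
def Iso (C : Fam L E X) (b : E) (C' : Fam L E' X') (b' : E') (Φ : X → X') : Prop :=
  @ContinuousOn _ _ C.top C'.top Φ (C.fib b) ∧ BijOn Φ (C.fib b) (C'.fib b') ∧ ∀ p ∈ C.fib b,
    (∀ i, p = C.s i b → Φ p = C'.s i b') ∧ ∀ f, FH C (f ∘ Φ) p ↔ FH C' f (Φ p)

/-- The number of maps on `S` that are restrictions of maps with the property `P`. -/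
def cnt (S : Set X) (P : (X → X') → Prop) : ℝ := (S.domRestrict '' {Φ | P Φ}).ncard

/-- The holomorphic vector fields (derivations of the holomorphic functions) on the fibre over `b`
that vanish at the marked points and satisfy `Q` are zero. -/
def Stab (C : Fam L E X) (b : E) (Q : Df X → Prop) : Prop :=
  ∀ D, (∀ p ∈ C.fib b, (∀ f g, C.hol f p → C.hol g p → D (fun q => f q + g q) p = D f p + D g p ∧
    D (fun q => f q * g q) p = f p * D g p + g p * D f p ∧ (f =ᶠ[nf C p] g → D f p = D g p) ∧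
      FH C (D f) p) ∧ ∀ c : ℂ, D (fun _ => c) p = 0) →
    (∀ i f, C.hol f (C.s i b) → D f (C.s i b) = 0) → Q D → ∀ p ∈ C.fib b, ∀ f, C.hol f p → D f p = 0

variable [NormedAddCommGroup E] [NormedSpace ℂ E]

/-- `U` with the functions `x`, `y`, `t` is a chart: the map `(π, x, y)` is a homeomorphism of `U`
onto an open part of `{(b, x, y) | x y = t(b)}`, `t` is holomorphic, and the holomorphic functions
are the restrictions of the holomorphic functions of `(b, x, y)`. A point with `x = y = 0` is a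
node of its fibre. -/
def Fam.IsChart (C : Fam L E X) (U : Set X) (x y : X → ℂ) (t : E → ℂ) : Prop :=
  letI := C.top
  let φ := fun p => (C.π p, x p, y p)
  IsOpen U ∧ InjOn φ U ∧
  (∀ V ⊆ U, IsOpen V ↔ ∃ W, IsOpen W ∧ φ '' V = {w ∈ W | w.2.1 * w.2.2 = t w.1}) ∧
  ∀ p ∈ U, AnalyticAt ℂ t (C.π p) ∧
    ∀ f, C.hol f p ↔ ∃ g, AnalyticAt ℂ g (φ p) ∧ f =ᶠ[𝓝 p] g ∘ φ

/-- `C` is a family of prestable curves: `B` is open, the total space is Hausdorff, the projection
is proper and every point is in a chart; the fibres are connected; the marked points are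
holomorphic sections, disjoint and not at nodes. -/
def Pre (C : Fam L E X) : Prop :=
  letI := C.top
  IsOpen C.B ∧ T2Space X ∧ (∀ K ⊆ C.B, IsCompact K → IsCompact (C.π ⁻¹' K)) ∧
  (∀ p, C.π p ∈ C.B ∧ ∃ U x y t, p ∈ U ∧ C.IsChart U x y t) ∧
  ∀ b ∈ C.B, IsConnected (C.fib b) ∧ Function.Injective (C.s · b) ∧
    ∀ σ ∈ range C.s, C.π (σ b) = b ∧ ContinuousAt σ b ∧
    (∀ f, C.hol f (σ b) → AnalyticAt ℂ (f ∘ σ) b) ∧
    ∀ U x y t, C.IsChart U x y t → σ b ∈ U → x (σ b) ≠ 0 ∨ y (σ b) ≠ 0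

/-- `C` is a family of stable curves over a base of finite dimension. -/
def Fam.IsStable (C : Fam L E X) : Prop :=
  FiniteDimensional ℂ E ∧ Pre C ∧ ∀ b ∈ C.B, Stab C b fun _ => True

/-- `η` is a section of the dualizing sheaf of the fibre over `b`. -/
def Om (C : Fam L E X) (b : E) (η : Df X) : Prop := ∀ p ∈ C.fib b,
  (∀ z w c, Co C z p → Co C w p → Dr C w z p c → η z p = c * η w p) ∧
  ∀ U x y t, C.IsChart U x y t → p ∈ U → ∃ f, FH C f p ∧
    ∀ᶠ q in nf C p, (x q ≠ 0 → η x q * x q = f q) ∧ (y q ≠ 0 → η y q * y q = -f q)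

/-- `e` is a basis of the sections of the dualizing sheaf: the fibre has genus `g`. -/
def Bas (C : Fam L E X) (b : E) (e : Fin g → Df X) : Prop := (∀ j, Om C b (e j)) ∧
  ∀ η, Om C b η → ∃! c : Fin g → ℂ, ∀ p ∈ C.fib b, ∀ z, Co C z p → η z p = ∑ j, c j * e j z p

/-- `e` is a holomorphic frame of the Hodge bundle near `b`. -/
def Fr (C : Fam L E X) (b : E) (e : Fin g → Df X) : Prop := ∀ᶠ a in 𝓝 b, Bas C a e ∧
  ∀ j, ∀ p ∈ C.fib a, ∀ z, C.hol z p → Co C z p → C.hol (e j z) p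

/-- `C` is a Kuranishi family at all points of its base: near every point of the base of a family
of stable curves the isomorphisms with the fibres of `C` over a compact set are given by finitely
many disjoint morphisms of families. The nodes are smoothed to first order. -/
def Kur (C : Fam L E X) : Prop := C.IsStable ∧
  (∀ U x y t, C.IsChart U x y t → ∀ p ∈ U, x p = 0 → y p = 0 → fderiv ℂ t (C.π p) ≠ 0) ∧
  ∀ E' X' [NormedAddCommGroup E'] [NormedSpace ℂ E'] (C' : Fam L E' X'), C'.IsStable →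
    ∀ b ∈ C'.B, ∀ K ⊆ C.B, IsCompact K →
    ∃ (k : ℕ) (φ : Fin k → E' → E) (Φ : Fin k → X' → X), ∀ᶠ a in 𝓝 b,
      (∀ j, φ j a ∈ C.B ∧ AnalyticAt ℂ (φ j) a ∧ Iso C' a C (φ j a) (Φ j) ∧
        (∀ p ∈ C'.fib a, @ContinuousAt _ _ C'.top C.top (Φ j) p ∧
          ∀ f, C.hol f (Φ j p) → C'.hol (f ∘ Φ j) p) ∧
        ∀ l, EqOn (Φ j) (Φ l) (C'.fib a) → j = l) ∧
      ∀ x ∈ K, ∀ Ψ, Iso C' a C x Ψ → ∃ j, EqOn Ψ (Φ j) (C'.fib a)

/-- `C` is a chart of the stack of stable curves of genus `g`, and `ρ` a cut off on its base. -/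
def Cht (g : ℕ) (C : Fam L E X) (ρ : E → ℝ) : Prop :=
  Kur C ∧ (∀ b ∈ C.B, ∃ e : Fin g → Df X, Fr C b e) ∧ ContDiff ℝ ∞ ρ ∧ IsCompact (tsupport ρ) ∧
    tsupport ρ ⊆ C.B

/-- Data `h E X C b i z = |dz|²` of metrics on the cotangent lines at the marked points. -/
abbrev Hm (L : Type) : Type 1 := ∀ E X, Fam L E X → E → L → (X → ℂ) → ℝ

/-- Data `G E X C b e` of Gram matrices of bases `e` of the Hodge bundle. -/
abbrev Gm (g : ℕ) : Type 1 :=
  ∀ E X, Fam Empty E X → E → (Fin g → Df X) → Matrix (Fin g) (Fin g) ℂ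

/-- `h` is a smooth Hermitian metric on the cotangent lines, on the stack of stable curves. -/
def IsPsi (h : Hm L) : Prop :=
  ∀ E X (C : Fam L E X) b i z, Co C z (C.s i b) →
  (∀ E' X' (C' : Fam L E' X') b' Φ z' c, Iso C b C' b' Φ → (∀ j, C.π (C.s j b) = b) →
    Co C' z' (C'.s i b') → Dr C z (z' ∘ Φ) (C.s i b) c →
      h E X C b i z = ‖c‖ ^ 2 * h E' X' C' b' i z') ∧
  ∀ [NormedAddCommGroup E] [NormedSpace ℂ E], C.IsStable → b ∈ C.B → C.hol z (C.s i b) →
    0 < h E X C b i z ∧ ContDiffAt ℝ ∞ (h E X C · i z) b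

/-- `G` is a smooth Hermitian metric on the Hodge bundle of the stack of stable curves of genus
`g` which does not depend on the marked points. -/
def IsLam (G : Gm g) : Prop :=
  ∀ E X [NormedAddCommGroup E] [NormedSpace ℂ E] b e,
  (∀ E' X' [NormedAddCommGroup E'] [NormedSpace ℂ E'] (C : Fam Empty E X) (C' : Fam Empty E' X')
    b' Φ e' (A : Matrix (Fin g) (Fin g) ℂ), Iso C b C' b' Φ → Bas C b e → Bas C' b' e' →
    (∀ p ∈ C.fib b, ∀ z, Co C (z ∘ Φ) p → ∀ j, e j (z ∘ Φ) p = ∑ k, A j k * e' k z (Φ p)) →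
      G E X C b e = A * G E' X' C' b' e' * Aᴴ) ∧
  ∀ (L : Type) [Finite L] (C : Fam L E X), C.IsStable → b ∈ C.B → Fr C b e →
    (G E X (fg C) b e).PosDef ∧ ∀ p q, ContDiffAt ℝ ∞ (G E X (fg C) · e p q) b

/-- `(∂_u f + s ∂_v f)/2`; for `u = e_j`, `v = i e_j` this is `∂f/∂z_j` if `s = -i` and `∂f/∂z̄_j` if
`s = i`. -/
def dw (s : ℂ) (u v : E) (f : E → ℂ) (z : E) : ℂ := (fderiv ℝ f z u + s * fderiv ℝ f z v) / 2

/-- The Chern forms of the metric with Gram matrix `G` in a holomorphic frame; the variable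
`(k, l)` is the form `i dz_k ∧ dz̄_l / 2π`. -/
def chern (G : Cm m → Matrix (Fin g) (Fin g) ℂ) (z : Cm m) (k : ℕ) :
    MvPolynomial (Fin m × Fin m) ℂ :=
  let D := fun s j => dw (E := Cm m) (s * Complex.I) (Pi.single j 1) (Pi.single j Complex.I)
  homogeneousComponent k (Matrix.det (1 - Matrix.of fun p q => ∑ i, ∑ j,
    C (D 1 j (fun y => ((Matrix.of fun p q => D (-1) i (G · p q) y) * (G y)⁻¹) p q) z) * .X (i, j)))

/-- The density of the part of top degree with respect to Lebesgue measure. -/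
def tau (P : MvPolynomial (Fin m × Fin m) ℂ) : ℂ :=
  (∑ σ : Equiv.Perm (Fin m), (σ.sign : ℂ) * coeff (∑ k, Finsupp.single (k, σ k) 1) P) / Real.pi ^ m

/-- `J P μ` is the integral of `P(λ) ∏ ψ_i ^ μ_i` (the variable `k` of `P` is `λ_k`) over the stack
of stable curves of genus `g` with `n` marked points, computed in an orbifold atlas (charts of
dimension `m`) with a partition of unity. -/
def Itg (g n m : ℕ) (G : Gm g) (h : Hm (Fin n)) (J : (Fin n → ℕ) → MvPolynomial ℕ ℂ → ℂ) : Prop :=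
  ∃ (k : ℕ) (X : Fin k → Type) (C : ∀ a, Fam (Fin n) (Cm m) (X a)) (ρ : Fin k → Cm m → ℝ),
    (∀ a, Cht g (C a) (ρ a)) ∧
    (∀ E Y [NormedAddCommGroup E] [NormedSpace ℂ E] (C' : Fam (Fin n) E Y), C'.IsStable →
      ∀ b ∈ C'.B, (∃ e : Fin g → Df Y, Bas C' b e) →
        ∑ a, ∑ᶠ x, cnt (C'.fib b) (Iso C' b (C a) x) * ρ a x = 1) ∧
    ∀ μ P, J μ P = ∑ a, ∫ b, ρ a b * tau
      (aeval (chern (G _ _ (fg (C a)) · (Classical.epsilon (Fr (C a) b))) b) P *
        ∏ i, chern (g := 1) (fun x _ _ => h _ _ (C a) x i (Classical.epsilon fun z =>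
          (C a).hol z ((C a).s i b) ∧ Co (C a) z ((C a).s i b))) b 1 ^ μ i)

/-- `I g [μ_1, …, μ_n] P` are the integrals `∫ P(λ) ∏ ψ_i ^ μ_i` over the stacks of stable curves. -/
def Hodge (I : ℕ → List ℕ → MvPolynomial ℕ ℂ → ℂ) : Prop :=
  ∃ (G : ∀ g, Gm g) (h : ∀ n, Hm (Fin n)), (∀ g, IsLam (G g) ∧ IsPsi (h g)) ∧
    ∀ g n, 2 < 2 * g + n → Itg g n (3 * g + n - 3) (G g) (h n) fun μ => I g (List.ofFn μ)

end Vale.Agent.P269S
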